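import Vale.Agent.P196.Full.Answer
import Vale.Agent.P196.Full.Lift.RelatorsHold
import Vale.Agent.P196.Full.Lift.Step.Main
import Vale.Agent.P196.Full.Tiles.Minimal.Generated
import Vale.Agent.P196.Full.Tiles.Occurs
import Vale.Agent.P196.Full.Tiles.Parse.Reconstruct
import Vale.Agent.P196.Full.Universal.Kernel.Main

/-!
# P196: an infinite finitely presented simple amenable group

The group is the alternating group of the action of `ℤ × ℤ`, amplified by eight colours, on the
subshift of a tile tower with growing zoom.
-/

open scoped symmDiff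

namespace Vale.Agent.Results.P196.SimpleAmenableFinitePres

open Vale.Agent.P196 Vale.Agent.P196.Full in
/-- There is an infinite, finitely presented, simple, amenable group. -/
theorem result : ∃ (G : Type) (_ : Group G), Infinite G ∧ IsSimpleGroup G ∧
    Group.IsFinitelyPresented G ∧
    ∀ (K : Finset G) (ε : ℝ), 0 < ε → ∃ D : Finset G, D.Nonempty ∧ ∀ g ∈ K,
      (((fun x => g * x) '' (D : Set G)) ∆ (D : Set G)).ncard < ε * D.card := by
  obtain ⟨G, hG, hinf, hs, ham, k, rels, hfin, ⟨e⟩⟩ :=
    answer_of_parts 8 le_rfl Tiles.parseGoal (Tiles.occursGoal Tiles.generatedGoal) universalGoal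
      (fun A P => Lift.stepGoal A P)
      (fun A _ V => Lift.relatorsHold (Tiles.tower Tiles.parseGoal) A V)
  refine ⟨G, hG, hinf, hs, ?_, fun K ε hε => ?_⟩
  · have hk : Group.IsFinitelyPresented (PresentedGroup rels) :=
      Group.IsFinitelyPresented.quotient _ ⟨rels, hfin, rfl⟩
    exact Group.IsFinitelyPresented.equiv e
  · obtain ⟨D, hD, hlt⟩ := ham K ε hε
    refine ⟨D, hD, fun g hg => ?_⟩
    letI := Classical.decEq G
    have h := hlt g hg
    rw [← Finset.coe_image, ← Finset.coe_symmDiff, Set.ncard_coe_finset]
    exact h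

end Vale.Agent.Results.P196.SimpleAmenableFinitePres
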